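import Vale.Agent.P028.MathlibUsed
import Vale.Agent.P028.H472.FinL
import Vale.Agent.P028.R764.LkGrpB

namespace Vale.Agent.Results.P028.AllShiftsLogStar

open MeasureTheory

/-- Let `γ` be any real number and `ψ : ℕ → [0,∞)` be arbitrary. If
`∑ φ(q) ψ(q) / (q (1 + L(q))^2) = ∞`, where `L(q)` is the iterated logarithm of `q` (the number of
times `q ↦ ⌊log₂ q⌋` has to be applied to `q` to reach a number `≤ 1`), then almost every real `x`
satisfies `‖q x - γ‖ < ψ q` for infinitely many `q`. -/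
theorem result :
    ∀ γ : ℝ, ∀ ψ : ℕ → ℝ, (∀ q, 0 ≤ ψ q) →
      ¬ Summable (fun q : ℕ => ((Nat.totient q : ℝ) / q) * ψ q /
        (1 + ((sInf {k : ℕ | (Nat.log 2)^[k] q ≤ 1} : ℕ) : ℝ)) ^ 2) →
      volume {x : ℝ | {q : ℕ | 0 < q ∧
        |(q * x - γ) - round (q * x - γ)| < ψ q}.Infinite}ᶜ = 0 :=
  fun γ ψ hψ h => Vale.P028.SK.q1_iter_of_leak Vale.P028.SK.leakGroupB γ ψ hψ h

end Vale.Agent.Results.P028.AllShiftsLogStar
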