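import Vale.Agent.P028.MathlibUsed
import Vale.Agent.P028.NMain
import Vale.Agent.P028.KMain
import Vale.Agent.P028.XMain
import Vale.Agent.P028.XGE
import Vale.Agent.P028.XEE
import Vale.Agent.P028.XF1

namespace Vale.Agent.Results.P028.ArcsDoubleLog

open MeasureTheory Filter

/-- Let `γ` be any real number, `ψ ≥ 0` arbitrary, `S(f) = ∑ φ(q) f(q) / q`. For every `δ > 0`
there is `A ≥ 1` such that, with `h(q) = ∑_{p ∣ q} (log p)^A / p` (`p` prime), almost every `x`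
satisfies `‖q x - γ‖ < ψ q` for infinitely many `q` in each of the following cases.
(1) `ψ` is non-increasing on its support and `S(ψ) = ∞`.
(2) `S(ψ₀) = ∞` for some `0 ≤ ψ₀ ≤ ψ` whose arcs `ψ₀(q)/q` are separated: for some `c > 0` and all
`q < r` in the support of `ψ₀`, the two arcs `ψ₀(q)/q` and `ψ₀(r)/r` differ at least by the factor
`c (r/q)^(1/4)`, in one direction or in the other.
(3) `ψ q ≤ exp (-(log log q)^(1+δ))` for large `q` and `S(ψ) = ∞`.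
(4) For some `C`, the part of `S(ψ)` over the `q` with `h q ≤ C` is infinite.
(5) `S(ψ / w) = ∞`, where `w q = 1` if `ψ q ≤ exp (-(1 + h q)^((1+δ)/A))`, and
`w q = (log (2 + log (2 + 1 / ψ q)))^δ` otherwise. -/
theorem result :
    ∀ δ : ℝ, 0 < δ → ∃ A : ℝ, 1 ≤ A ∧ ∀ γ : ℝ, ∀ ψ : ℕ → ℝ, (∀ q, 0 ≤ ψ q) →
      (((∀ q r : ℕ, 0 < q → q < r → 0 < ψ q → 0 < ψ r → ψ r ≤ ψ q) ∧
          ¬ Summable (fun q : ℕ => ((Nat.totient q : ℝ) / q) * ψ q)) ∨
        (∃ ψ₀ : ℕ → ℝ, (∀ q, 0 ≤ ψ₀ q ∧ ψ₀ q ≤ ψ q) ∧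
          (∃ c : ℝ, 0 < c ∧ ∀ q r : ℕ, 0 < q → q < r → 0 < ψ₀ q → 0 < ψ₀ r →
            c * ((r : ℝ) / q) ^ (1 / 4 : ℝ) ≤
              max ((ψ₀ q / q) / (ψ₀ r / r)) ((ψ₀ r / r) / (ψ₀ q / q))) ∧
          ¬ Summable (fun q : ℕ => ((Nat.totient q : ℝ) / q) * ψ₀ q)) ∨
        ((∀ᶠ q : ℕ in atTop, ψ q ≤ Real.exp (-(Real.log (Real.log q)) ^ (1 + δ))) ∧
          ¬ Summable (fun q : ℕ => ((Nat.totient q : ℝ) / q) * ψ q)) ∨
        (∃ C : ℝ, ¬ Summable (fun q : ℕ =>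
          if ∑ p ∈ q.primeFactors, (Real.log p) ^ A / p ≤ C then
            ((Nat.totient q : ℝ) / q) * ψ q else 0)) ∨
        ¬ Summable (fun q : ℕ => ((Nat.totient q : ℝ) / q) * ψ q /
          (if ψ q ≤ Real.exp (-(1 + ∑ p ∈ q.primeFactors, (Real.log p) ^ A / p) ^ ((1 + δ) / A))
            then 1 else (Real.log (2 + Real.log (2 + 1 / ψ q))) ^ δ))) →
      volume {x : ℝ | {q : ℕ | 0 < q ∧
        |(q * x - γ) - round (q * x - γ)| < ψ q}.Infinite}ᶜ = 0 := by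
  intro δ hδ
  obtain ⟨A, hA, hU⟩ := Vale.P028.theoremXU
    (Vale.P028.blkG_of_E (Vale.P028.blkE_of_F1 Vale.P028.blkF1)) hδ
  refine ⟨A, hA, ?_⟩
  intro γ ψ hψ h
  rcases h with ⟨hmono, hns⟩ | ⟨ψ₀, hψ₀, ⟨c, hc, hsep⟩, hns⟩ | ⟨hev, hns⟩ |
    ⟨C, hns⟩ | hns
  · refine Vale.P028.theoremN γ ψ hψ (c₀ := 1) one_pos ?_ hns
    intro q r hq hqr h1 h2
    unfold Vale.P028.ArcSep
    have hq' : (0 : ℝ) < q := by exact_mod_cast hq
    have hr' : (0 : ℝ) < r := by exact_mod_cast (lt_trans hq hqr)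
    have hqr' : (q : ℝ) ≤ r := by exact_mod_cast hqr.le
    have hx : (1 : ℝ) ≤ (r : ℝ) / q := (one_le_div hq').2 hqr'
    rw [one_mul]
    refine le_trans ?_ (le_max_left _ _)
    have e1 : ((r : ℝ) / q) ^ (1 / 4 : ℝ) ≤ ((r : ℝ) / q) ^ (1 : ℝ) :=
      Real.rpow_le_rpow_of_exponent_le hx (by norm_num)
    rw [Real.rpow_one] at e1
    refine e1.trans ?_
    have e2 : ψ q / q / (ψ r / r) = (ψ q / ψ r) * ((r : ℝ) / q) := by
      field_simp
    rw [e2]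
    have e3 : 1 ≤ ψ q / ψ r := (one_le_div h2).2 (hmono q r hq hqr h1 h2)
    nlinarith [mul_le_mul_of_nonneg_right e3 (le_trans zero_le_one hx)]
  · have key := Vale.P028.theoremN γ ψ₀ (fun q => (hψ₀ q).1) hc (fun q r hq hqr h1 h2 => by
      unfold Vale.P028.ArcSep
      exact hsep q r hq hqr h1 h2) hns
    refine measure_mono_null ?_ key
    intro x hx hx'
    apply hx
    refine Set.Infinite.mono ?_ hx'
    intro q hq
    refine ⟨hq.1, lt_of_lt_of_le hq.2 (hψ₀ q).2⟩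
  · exact Vale.P028.theoremK γ ψ hψ δ hδ hev hns
  · refine hU γ ψ hψ (Or.inl ⟨C, ?_⟩)
    intro hs
    apply hns
    refine hs.congr fun q => ?_
    congr
  · refine hU γ ψ hψ (Or.inr ?_)
    intro hs
    apply hns
    refine hs.congr fun q => ?_
    congr

end Vale.Agent.Results.P028.ArcsDoubleLog
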