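import Vale.Agent.P028.MathlibUsed
import Vale.Agent.P028.Y.Dim

namespace Vale.Agent.Results.P028.ExceptionalShifts

open MeasureTheory

/-- Let `ψ : ℕ → [0,∞)` be arbitrary with `∑ ψ(q) = ∞` (this follows from the hypothesis
`∑ φ(q) ψ(q) / q = ∞` of Q1). Then the set of all shifts `γ ∈ ℝ` for which
`{x : ‖q x - γ‖ < ψ q for infinitely many q}` is not of full Lebesgue measure has Hausdorff
dimension `0`. -/
theorem result :
    ∀ ψ : ℕ → ℝ, (∀ q, 0 ≤ ψ q) → ¬ Summable ψ →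
      dimH {γ : ℝ | volume {x : ℝ | {q : ℕ | 0 < q ∧
        |(q * x - γ) - round (q * x - γ)| < ψ q}.Infinite}ᶜ ≠ 0} = 0 :=
  fun ψ h0 h => Vale.P028.Y.dimH_exceptional ψ h0 h

end Vale.Agent.Results.P028.ExceptionalShifts
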